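import Vale.Agent.P275.H341.All
import Vale.Agent.P275.R2.H617.Low

/-!
# The isotypic parts of the twisted character variety: explicit point counts for every order, their
# leading coefficient, and the weights in the lowest degree
-/

namespace Vale.Agent.Results.P275.LowestDegree

open scoped BigOperators MatrixGroups Topology
open Module Vale.Agent.P275.H85 Vale.Agent.P275.H341

theorem result (n m g D R : ℕ) (hn : 1 ≤ n) (hmn : m ∣ n) (hm : 2 ≤ m) (hg : 2 ≤ g)
    (hD : D = n * (n - n / m) * (g - 1)) (hR : R = (n ^ 2 - 1) * (g - 1)) :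
    (∀ (F : Type) [Field F] [Fintype F] [DecidableEq F] (ζ : Fˣ) (κ κ' : Fin g → (Fˣ →* ℂˣ)),
      orderOf ζ = n → orderOf (fun i => (κ i, κ' i)) = m →
      (∀ i, κ i (-1) = 1 ∧ κ' i (-1) = 1) →
      commSum F n g ζ κ κ'
        = ((Fintype.card F : ℂ) - 1) * (Fintype.card (GL (Fin n) F) : ℂ) *
          eG n m g (Fintype.card F)) ∧
    Filter.Tendsto (fun q : ℕ => eG n m g (q : ℂ) / (q : ℂ) ^ (2 * R - D + 2 * g - 3))
      Filter.atTop (𝓝 (-((2 * g - 2 : ℕ) : ℂ))) ∧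
    (∀ h : ℕ → ℕ → ℕ,
      (∀ k w, h k w ≠ 0 → k ≤ w ∧ w ≤ 2 * k) →
      (∀ k w, k ≤ 2 * D → h k w = 0) →
      (∑ w ∈ Finset.range (2 * (2 * D + 1) + 1), h (2 * D + 1) w = 2 * g - 2) →
      (∀ (F : Type) [Field F] [Fintype F] [DecidableEq F], 2 * n ∣ Fintype.card F - 1 →
        ∃ (ζ : Fˣ) (κ κ' : Fin g → (Fˣ →* ℂˣ)),
          orderOf ζ = n ∧ orderOf (fun i => (κ i, κ' i)) = m ∧
          commSum F n g ζ κ κ'
            = ((Fintype.card F : ℂ) - 1) ^ (2 * g - 1) * (Fintype.card (GL (Fin n) F) : ℂ) *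
              ∑ k ∈ Finset.range (2 * R + 1), ∑ w ∈ Finset.range (2 * k + 1),
                (-1) ^ k * (h k w : ℂ) *
                  ((Real.sqrt (Fintype.card F) : ℝ) : ℂ) ^ (4 * R - w)) →
      (∀ w, h (2 * D + 1) w = if w = 2 * (D + 1) then 2 * g - 2 else 0) ∧
      h (2 * D + 2) (2 * D + 2) = 0) := by
  subst hD hR
  refine ⟨?_, ?_, ?_⟩
  · intro F _ _ _ ζ κ κ' hζ hκ hneg
    exact count_all hn hmn (by omega) ζ hζ κ κ' hκ hneg
  · have h := Vale.Agent.P275.R2.H617.eG_lim Vale.Agent.P275.H633.rowA8 n m g hn hmn hm hg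
    have e : (g - 1) * (n ^ 2 + n * (n / m)) - 1
        = 2 * ((n ^ 2 - 1) * (g - 1)) - n * (n - n / m) * (g - 1) + 2 * g - 3 := by
      have hrn : n / m ≤ n := Nat.div_le_self n m
      have hr1 : 1 ≤ n / m := Nat.div_pos (Nat.le_of_dvd (by omega) hmn) (by omega)
      have hn2 : 2 ≤ n := hm.trans (Nat.le_of_dvd (by omega) hmn)
      generalize n / m = r at hrn hr1
      obtain ⟨g', rfl⟩ : ∃ g', g = g' + 2 := ⟨g - 2, by omega⟩
      obtain ⟨v, rfl⟩ : ∃ v, n = r + v := ⟨n - r, by omega⟩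
      rw [Nat.add_sub_cancel_left, show g' + 2 - 1 = g' + 1 by omega]
      obtain ⟨z, hz⟩ : ∃ z, (r + v) ^ 2 = z + 1 := ⟨(r + v) ^ 2 - 1, by
        have : 1 ≤ (r + v) ^ 2 := Nat.one_le_pow _ _ (by omega)
        omega⟩
      have h1 : (r + v) * v * (g' + 1) + (g' + 1) * ((r + v) ^ 2 + (r + v) * r)
          = 2 * (z * (g' + 1)) + 2 * (g' + 1) := by
        have : z * (g' + 1) + (g' + 1) = (r + v) ^ 2 * (g' + 1) := by rw [hz]; ring
        nlinarith
      have h2 : (r + v) * v ≤ z := by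
        have : 2 ≤ (r + v) * r := by nlinarith
        nlinarith
      have h3 : (r + v) * v * (g' + 1) ≤ z * (g' + 1) := Nat.mul_le_mul_right _ h2
      rw [hz] at h1 ⊢
      rw [Nat.add_sub_cancel]
      omega
    rw [e] at h
    exact h
  · intro h H0 H1 H2 H3
    exact lowG allC9 allC10 Vale.Agent.P275.H85G.rowC11
      (Vale.Agent.P275.R2.H617.rowTopG Vale.Agent.P275.H633.rowA8) hn hmn hm hg h H0 H1 H2 H3

end Vale.Agent.Results.P275.LowestDegree
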