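import Vale.Agent.P275.H85.R3

/-!
# The isotypic parts of the characters of order `n`: point count and weights in every degree
-/

namespace Vale.Agent.Results.P275.PrimitiveWeights

open scoped BigOperators MatrixGroups
open Vale.Agent.P275.H85

theorem result (n g : ℕ) (hn : 1 ≤ n) (hg : 1 ≤ g) :
    (∀ (F : Type) [Field F] [Fintype F] [DecidableEq F] (ζ : Fˣ)
      (κ κ' : Fin g → (Fˣ →* ℂˣ)),
      orderOf ζ = n → orderOf (fun i => (κ i, κ' i)) = n →
      (∀ i, κ i (-1) = 1 ∧ κ' i (-1) = 1) →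
      commSum F n g ζ κ κ'
        = ((Fintype.card F : ℂ) - 1) ^ (2 * g - 1) * (Fintype.card (GL (Fin n) F) : ℂ) *
          ((Fintype.card F : ℂ) ^ (n * (n - 1) * (g - 1)) *
            ∑ S ∈ goodSets n g, (-1) ^ S.card * (Fintype.card F : ℂ) ^ S.card)) ∧
    (∀ (D R : ℕ), D = n * (n - 1) * (g - 1) → R = (n ^ 2 - 1) * (g - 1) →
      ∀ h : ℕ → ℕ → ℕ,
      (∀ k w, h k w ≠ 0 → w ≤ 2 * k) →
      (∀ k, ∑ w ∈ Finset.range (2 * k + 1), h k w
        = ((goodSets n g).filter fun S => k = 2 * D + S.card).card) →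
      (∀ k l w, k + l = R + D → h k w = h (k + 2 * l) (w + 4 * l)) →
      (∀ (F : Type) [Field F] [Fintype F] [DecidableEq F], 2 * n ∣ Fintype.card F - 1 →
        ∃ (ζ : Fˣ) (κ κ' : Fin g → (Fˣ →* ℂˣ)),
          orderOf ζ = n ∧ orderOf (fun i => (κ i, κ' i)) = n ∧
          commSum F n g ζ κ κ'
            = ((Fintype.card F : ℂ) - 1) ^ (2 * g - 1) * (Fintype.card (GL (Fin n) F) : ℂ) *
              ∑ k ∈ Finset.range (2 * R + 1), ∑ w ∈ Finset.range (2 * k + 1),
                (-1) ^ k * (h k w : ℂ) *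
                  ((Real.sqrt (Fintype.card F) : ℝ) : ℂ) ^ (4 * R - w)) →
      ∀ k w, h k w = if w + 2 * D = 2 * k then
        ((goodSets n g).filter fun S => k = 2 * D + S.card).card else 0) := by
  refine ⟨?_, ?_⟩
  · intro F _ _ _ ζ κ κ' hζ hκ hneg
    exact commSum_eq hn hg ζ hζ κ κ' hκ hneg
  · rintro D R rfl rfl h H0 H1 H2 H3
    exact table_of_line H0 H1 (rigidity hn hg h H0 H1 H2 H3)

end Vale.Agent.Results.P275.PrimitiveWeights
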